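import Vale.Agent.P145.JG.Defs

/-!
Jordan domains, lattice polygons and approximations, as in the text of the problem.
-/

namespace Vale.Agent.P145W

open Set Filter Topology Vale.Agent.P145.JG

/-- `β`, on `[0,1]`, is a simple closed curve: continuous, injective on `[0,1)`, closed. -/
def IsSimpleClosed (β : ℝ → ℝ × ℝ) : Prop :=
  ContinuousOn β (Icc 0 1) ∧ InjOn β (Ico 0 1) ∧ β 1 = β 0

/-- `D` is a bounded Jordan domain with the parametrized boundary `β`: a bounded connected open set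
whose boundary is the simple closed curve `β`. -/
def IsJordan (D : Set (ℝ × ℝ)) (β : ℝ → ℝ × ℝ) : Prop :=
  IsOpen D ∧ IsConnected D ∧ Bornology.IsBounded D ∧ IsSimpleClosed β ∧
    frontier D = β '' Icc 0 1

/-- The point of the lattice of mesh `δ`. -/
def pt (δ : ℝ) (v : ℤ × ℤ) : ℝ × ℝ := (δ * v.1, δ * v.2)

/-- The polygon with the vertices `p 0, p 1, …` on the lattice of mesh `δ`, as a subset of the
plane. -/
def trace (δ : ℝ) {n : ℕ} (p : ZMod n → ℤ × ℤ) : Set (ℝ × ℝ) :=
  ⋃ i, segment ℝ (pt δ (p i)) (pt δ (p (i + 1)))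

/-- The points inside the curve `C`: their component in the complement of `C` is bounded. -/
def inside (C : Set (ℝ × ℝ)) : Set (ℝ × ℝ) :=
  {z | z ∉ C ∧ Bornology.IsBounded (connectedComponentIn Cᶜ z)}

/-- `F` is the set of the bounded faces of the graph on or inside the polygon: the open squares of
the lattice (given by their bottom-left corners) which are inside the polygon. -/
def Faces (δ : ℝ) {n : ℕ} (p : ZMod n → ℤ × ℤ) (F : Finset (ℤ × ℤ)) : Prop :=
  ∀ f : ℤ × ℤ, f ∈ F ↔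
    Ioo (δ * f.1) (δ * (f.1 + 1)) ×ˢ Ioo (δ * f.2) (δ * (f.2 + 1)) ⊆ inside (trace δ p)

/-- Simple lattice polygons `p n` of mesh `δ n → 0`, with the bounded faces `F n`, whose boundaries
converge uniformly, as parametrized curves, to the boundary `β` of `D`, and which eventually enclose
every compact subset of `D`. -/
structure ApproxL (D : Set (ℝ × ℝ)) (β : ℝ → ℝ × ℝ) (δ : ℕ → ℝ) (N : ℕ → ℕ)
    (p : ∀ n, ZMod (N n) → ℤ × ℤ) (F : ℕ → Finset (ℤ × ℤ)) : Prop where
  pos : ∀ n, 0 < δ n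
  lim : Tendsto δ atTop (𝓝 0)
  poly : ∀ n, IsPolygon (p n)
  faces : ∀ n, Faces (δ n) (p n) (F n)
  unif : ∃ γ : ℕ → ℝ → ℝ × ℝ, (∀ n, IsSimpleClosed (γ n) ∧ γ n '' Icc 0 1 = trace (δ n) (p n)) ∧
    TendstoUniformlyOn γ β atTop (Icc 0 1)
  cpt : ∀ K ⊆ D, IsCompact K → ∀ᶠ n in atTop, K ⊆ inside (trace (δ n) (p n))

end Vale.Agent.P145W
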