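import Vale.Agent.P145W51.Poly
import Vale.Agent.P167.H634.Apx.Chain2

/-!
# P145, literal form: polygons close to a Jordan curve, with parametrizations; they enclose the
compact subsets of the domain
-/

namespace Vale.Agent.P145W51

open Set Filter Topology Metric
open Vale.Agent.P167.H72.Lit (pt curve inside bdry)
open Vale.Agent.P167 P153.TOP
open Vale.Agent.P153.R2.R1 (JCurve pl monotone_pl continuous_pl pl_int pl_eq DC FC)

/-! ### Winding: a curve close to the boundary curve encloses the point -/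

theorem not_logOn (Φ : ℂ ≃ₜ ℂ) {z : ℂ} (hz : z ∈ Φ '' ball 0 1) {ℓ : ℝ → ℂ}
    (hℓ : ContinuousOn ℓ (Icc 0 1)) (h : ∀ t ∈ Icc (0 : ℝ) 1, Complex.exp (ℓ t) = bdry Φ t - z) :
    ℓ 0 ≠ ℓ 1 := by
  intro h0
  have hπ := Real.pi_pos
  have hm : ∀ t ∈ Icc 0 (2 * Real.pi), t / (2 * Real.pi) ∈ Icc (0 : ℝ) 1 := fun t ht =>
    ⟨div_nonneg ht.1 (by positivity), (div_le_one (by positivity)).2 ht.2⟩
  have hF : ∀ t : ℝ, FC (H72.Lit.conj Φ) t = Φ (Complex.exp (t * Complex.I)) := fun t => by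
    have h1 : FC (H72.Lit.conj Φ) t = bdry Φ (t / (2 * Real.pi)) := H72.Lit.toC_conj_circ Φ t
    rw [h1, bdry]
    congr 2
    have : (Real.pi : ℂ) ≠ 0 := by exact_mod_cast Real.pi_ne_zero
    push_cast
    field_simp
  have hD : DC (H72.Lit.conj Φ) = Φ '' ball 0 1 := H72.Lit.dom_conj Φ
  refine H174.not_logOn_frontier (H72.Lit.conj Φ) (hD ▸ hz) ?_
  have h1 : LogOn (sphere (0 : ℂ) 1) (fun w => Φ w - z) := by
    refine H174.logOn_circle (ℓ := fun t => ℓ (t / (2 * Real.pi)))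
      (hℓ.comp (by fun_prop) hm) (fun t ht => ?_) ?_
    · rw [h _ (hm t ht), ← hF]
      exact congrArg (· - z) (H72.Lit.toC_conj_circ Φ t).symm
    · have e : 2 * Real.pi / (2 * Real.pi) = 1 := by field_simp
      simp only [zero_div, e, h0]
  refine (h1.comp (L := range (FC (H72.Lit.conj Φ))) (φ := Φ.symm)
    Φ.symm.continuous.continuousOn ?_).congr ?_
  · rintro _ ⟨t, rfl⟩
    rw [hF, Homeomorph.symm_apply_apply, mem_sphere_zero_iff_norm, Complex.norm_exp_ofReal_mul_I]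
  · intro w _
    simp

theorem continuous_bdry (Φ : ℂ ≃ₜ ℂ) : Continuous (bdry Φ) := by
  unfold bdry
  exact Φ.continuous.comp (by fun_prop)

/-- **A closed curve which is closer to the boundary curve than the point `z` of the domain has `z`
in a bounded component of its complement.** -/
theorem inside_of_close (Φ : ℂ ≃ₜ ℂ) {z : ℂ} (hz : z ∈ Φ '' ball 0 1) {γ : ℝ → ℂ}
    (hγ : ContinuousOn γ (Icc 0 1)) (h1 : γ 1 = γ 0)
    (hc : ∀ t ∈ Icc (0 : ℝ) 1, ‖γ t - bdry Φ t‖ < ‖bdry Φ t - z‖) :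
    z ∉ γ '' Icc 0 1 ∧ Bornology.IsBounded (connectedComponentIn (γ '' Icc 0 1)ᶜ z) := by
  have hzC : z ∉ γ '' Icc 0 1 := by
    rintro ⟨t, ht, h⟩
    have := hc t ht
    rw [h, norm_sub_rev] at this
    exact lt_irrefl _ this
  refine ⟨hzC, ?_⟩
  by_contra hb
  have hK : IsCompact (γ '' Icc 0 1) := isCompact_Icc.image_of_continuousOn hγ
  obtain ⟨R, hR⟩ := hK.isBounded.subset_closedBall (0 : ℂ)
  obtain ⟨q, hq, hqR⟩ : ∃ q ∈ connectedComponentIn (γ '' Icc 0 1)ᶜ z, R < ‖q‖ := by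
    by_contra hcon
    push Not at hcon
    exact hb ((isBounded_closedBall (x := (0 : ℂ)) (r := R)).subset fun q hq =>
      mem_closedBall_zero_iff.2 (hcon q hq))
  have hR0 : 0 ≤ R := (norm_nonneg _).trans
    (mem_closedBall_zero_iff.1 (hR ⟨0, ⟨le_rfl, zero_le_one⟩, rfl⟩))
  have hq0 : q ≠ 0 := by
    intro h0
    rw [h0, norm_zero] at hqR
    linarith
  have h2 : LogOn (γ '' Icc 0 1) (fun w => (w - q) / (-q)) := by
    refine logOn_of_norm_sub_one_lt (by fun_prop) fun w hw => ?_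
    have hw' : ‖w‖ ≤ R := mem_closedBall_zero_iff.1 (hR hw)
    have e : (w - q) / (-q) - 1 = -(w / q) := by
      field_simp
      ring
    rw [e, norm_neg, norm_div, div_lt_one (by linarith)]
    linarith
  have h3 := logOn_of_preconnected hK.isClosed isPreconnected_connectedComponentIn
    (connectedComponentIn_subset _ z) (mem_connectedComponentIn hzC) hq
  have h4 : LogOn (γ '' Icc 0 1) (fun w => w - z) := by
    refine ((h3.mul h2).mul (logOn_const (neg_ne_zero.2 hq0))).congr fun w hw => ?_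
    have h5 : w - q ≠ 0 := fun h0 => connectedComponentIn_subset _ z hq (sub_eq_zero.1 h0 ▸ hw)
    field_simp
  obtain ⟨F, hF, hF'⟩ := h4
  have hne : ∀ t ∈ Icc (0 : ℝ) 1, bdry Φ t - z ≠ 0 := fun t ht h0 => by
    have := hc t ht
    rw [h0, norm_zero] at this
    exact absurd this (not_lt.2 (norm_nonneg _))
  have h6 : ContinuousOn (fun t => (γ t - z) / (bdry Φ t - z)) (Icc (0 : ℝ) 1) :=
    (hγ.sub continuousOn_const).div ((continuous_bdry Φ).continuousOn.sub continuousOn_const) hne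
  have hsl : ∀ t ∈ Icc (0 : ℝ) 1, (γ t - z) / (bdry Φ t - z) ∈ Complex.slitPlane := by
    intro t ht
    have e : (γ t - z) / (bdry Φ t - z) = 1 + (γ t - bdry Φ t) / (bdry Φ t - z) := by
      have := hne t ht
      field_simp
      ring
    rw [e]
    refine Complex.mem_slitPlane_of_norm_lt_one ?_
    rw [norm_div, div_lt_one (norm_pos_iff.2 (hne t ht))]
    exact hc t ht
  have hb1 : bdry Φ 1 = bdry Φ 0 := by
    unfold bdry
    simp
  refine not_logOn Φ hz (ℓ := fun t => F (γ t) - Complex.log ((γ t - z) / (bdry Φ t - z)))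
    ((hF.comp hγ fun t ht => ⟨t, ht, rfl⟩).sub (h6.clog hsl)) (fun t ht => ?_) ?_
  · have h7 : γ t - z ≠ 0 := fun h0 => hzC ⟨t, ht, sub_eq_zero.1 h0⟩
    have h8 := hne t ht
    rw [Complex.exp_sub, hF' _ ⟨t, ht, rfl⟩, Complex.exp_log (div_ne_zero h7 h8)]
    field_simp
  · simp only [h1, hb1]

/-! ### The change of time -/

theorem exists_time {N : ℕ} (hN : 0 < N) {τ : ℕ → ℝ} (hτ : Monotone τ)
    (t0 : τ 0 = 0) (tN : τ N = 1) {lam : ℝ} (hl : 0 < lam) (hl1 : lam < 1) :
    ∃ x : ℝ → ℝ, Continuous x ∧ StrictMono x ∧ x 0 = 0 ∧ x 1 = N ∧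
      ∀ t ∈ Icc (0 : ℝ) 1, ∃ i < N, (i : ℝ) ≤ x t ∧ x t ≤ i + 1 ∧ ∃ t' ∈ Icc (τ i) (τ (i + 1)),
        |t - t'| ≤ lam := by
  have hk : (0 : ℝ) < N := by exact_mod_cast hN
  set s : ℤ → ℝ := fun i => τ i.toNat with hs
  have hsm : Monotone s := fun i j hij => hτ (Int.toNat_le_toNat hij)
  set g : ℝ → ℝ := pl s with hg
  have hgm : Monotone g := monotone_pl hsm
  have hgc : Continuous g := continuous_pl s
  have hgi : ∀ i : ℕ, g i = τ i := by
    intro i
    have := pl_int s i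
    rw [hs] at this
    simpa using this
  set G : ℝ → ℝ := fun x => (1 - lam) * g x + lam * (x / N) with hG
  have hGc : Continuous G := by
    simp only [hG]
    fun_prop
  have hGm : StrictMono G := by
    intro x y hxy
    have a1 := hgm hxy.le
    have a2 : x / N < y / N := by gcongr
    simp only [hG]
    nlinarith
  have g_0 : g 0 = 0 := by
    have := hgi 0
    simpa [t0] using this
  have G_0 : G 0 = 0 := by simp [hG, g_0]
  have G_N : G N = 1 := by
    simp only [hG, hgi, tN, div_self hk.ne']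
    ring
  have hsurj : Function.Surjective G := by
    intro y
    have e : lam * (N * y / lam / N) = y := by field_simp
    refine mem_range_of_exists_le_of_exists_ge hGc ?_ ?_
    · refine ⟨min 0 (N * y / lam), ?_⟩
      have b1 : g (min 0 (N * y / lam)) ≤ 0 := (hgm (min_le_left _ _)).trans g_0.le
      have b2 : min 0 (N * y / lam) / N ≤ N * y / lam / N := by
        gcongr
        exact min_le_right _ _
      simp only [hG]
      nlinarith
    · refine ⟨max 0 (N * y / lam), ?_⟩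
      have b1 : 0 ≤ g (max 0 (N * y / lam)) := g_0.ge.trans (hgm (le_max_left _ _))
      have b2 : N * y / lam / N ≤ max 0 (N * y / lam) / N := by
        gcongr
        exact le_max_right _ _
      simp only [hG]
      nlinarith
  set e : ℝ ≃o ℝ := hGm.orderIsoOfSurjective G hsurj with he
  have eG : ∀ x, e x = G x := fun x => rfl
  have e0 : e.symm 0 = 0 := by rw [e.symm_apply_eq, eG, G_0]
  have eN : e.symm 1 = N := by rw [e.symm_apply_eq, eG, G_N]
  refine ⟨e.symm, e.symm.continuous, e.symm.strictMono, e0, eN, fun t ht => ?_⟩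
  set x := e.symm t with hx
  have hx0 : 0 ≤ x := by rw [← e0]; exact e.symm.monotone ht.1
  have hxN : x ≤ N := by rw [← eN]; exact e.symm.monotone ht.2
  have hGx : G x = t := by rw [← eG, hx, e.apply_symm_apply]
  have hi : ∃ i < N, (i : ℝ) ≤ x ∧ x ≤ i + 1 := by
    rcases hxN.lt_or_eq with h1 | h1
    · refine ⟨⌊x⌋₊, (Nat.floor_lt hx0).2 h1, Nat.floor_le hx0, (Nat.lt_floor_add_one x).le⟩
    · refine ⟨N - 1, by omega, ?_, ?_⟩
      · rw [h1]
        exact_mod_cast Nat.sub_le N 1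
      · rw [h1, Nat.cast_sub (by omega)]
        push_cast
        linarith
  obtain ⟨i, hiN, hi1, hi2⟩ := hi
  refine ⟨i, hiN, hi1, hi2, g x, ⟨?_, ?_⟩, ?_⟩
  · rw [← hgi]
    exact hgm hi1
  · rw [← hgi]
    refine hgm ?_
    push_cast
    exact hi2
  · have c1 : 0 ≤ g x := g_0.ge.trans (hgm hx0)
    have c2 : g x ≤ 1 := by
      rw [← tN, ← hgi]
      exact hgm hxN
    have c3 : 0 ≤ x / N := by positivity
    have c4 : x / N ≤ 1 := (div_le_one hk).2 hxN
    have c5 : t - g x = lam * (x / N - g x) := by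
      rw [← hGx]
      simp only [hG]
      ring
    rw [c5, abs_mul, abs_of_pos hl]
    have c6 : |x / N - g x| ≤ 1 := abs_le.2 ⟨by linarith, by linarith⟩
    nlinarith [abs_nonneg (x / N - g x)]

/-! ### Parametrized polygons -/

variable {n : ℕ} {p : ZMod n → ℤ × ℤ} {δ : ℝ}

/-- A change of time gives a parametrization of the polygon as a simple closed curve. -/
theorem param_of_time (hδ : 0 < δ) (hp : E6.IsPolygon p) {x : ℝ → ℝ} (hc : Continuous x)
    (hm : StrictMono x) (x0 : x 0 = 0) (x1 : x 1 = n) :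
    P167Z.IsSimpleClosed (fun t => E6.PF6 p δ (x t)) ∧
      (fun t => E6.PF6 p δ (x t)) '' Icc 0 1 = curve δ p := by
  have hJ := E6.jcurve_PF6 hδ hp
  have hn : n ≠ 0 := by have := hp.1; omega
  have hn0 := hJ.pos
  refine ⟨⟨(hJ.cont.comp hc).continuousOn, fun s hs t ht he => ?_, ?_⟩, ?_⟩
  · obtain ⟨k, hk⟩ := hJ.inj _ _ he
    have a1 : 0 ≤ x s := x0 ▸ hm.monotone hs.1
    have a2 : x s < n := x1 ▸ hm hs.2
    have a3 : 0 ≤ x t := x0 ▸ hm.monotone ht.1
    have a4 : x t < n := x1 ▸ hm ht.2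
    have k1 : (k : ℝ) < 1 := by
      by_contra hcon
      push Not at hcon
      nlinarith
    have k2 : (-1 : ℝ) < k := by
      by_contra hcon
      push Not at hcon
      nlinarith
    have k1' : k < 1 := by exact_mod_cast k1
    have k2' : -1 < k := by exact_mod_cast k2
    have k0 : k = 0 := by omega
    rw [k0] at hk
    exact hm.injective (by simpa using hk)
  · have := hJ.per 0
    rw [zero_add] at this
    simp only [x0, x1, this]
  · rw [H72.Lit.curve_eq hn]
    apply Subset.antisymm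
    · rintro _ ⟨t, -, rfl⟩
      exact ⟨_, rfl⟩
    · rintro _ ⟨y, rfl⟩
      have hI : Int.fract (y / n) * n ∈ Icc (x 0) (x 1) := by
        rw [x0, x1]
        have b1 := Int.fract_nonneg (y / n)
        have b2 := Int.fract_lt_one (y / n)
        exact ⟨by positivity, by nlinarith⟩
      obtain ⟨t, ht, he⟩ := intermediate_value_Icc zero_le_one hc.continuousOn hI
      refine ⟨t, ht, ?_⟩
      have e : Int.fract (y / n) * n = y + ((-⌊y / n⌋ : ℤ) : ℝ) * n := by
        rw [Int.fract]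
        push_cast
        field_simp
        ring
      simp only [he, e, P153.R2.R1.per_int hJ.per]

theorem dist_PF6 (hδ : 0 < δ) (hp : E6.IsPolygon p) {i : ℕ} {x : ℝ} (h1 : (i : ℝ) ≤ x)
    (h2 : x ≤ i + 1) : dist (E6.PF6 p δ x) ((δ : ℂ) * pt (p i)) ≤ δ := by
  have e := pl_eq (E6.PV6 p δ) (i : ℤ) (x := x) (by exact_mod_cast h1) (by exact_mod_cast h2)
  have hd := dist_of_isPolygon hp (i : ZMod n)
  have e2 : E6.PF6 p δ x - (δ : ℂ) * pt (p i) =
      ((x - i : ℝ) : ℂ) * ((δ : ℂ) * (pt (p (i + 1)) - pt (p i))) := by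
    rw [E6.PF6, e]
    simp only [E6.PV6, Complex.real_smul]
    push_cast
    have a : ∀ v, E6.pt v = pt v := fun _ => rfl
    simp only [a]
    ring
  rw [dist_eq_norm, e2, norm_mul, norm_mul, ← dist_eq_norm, dist_comm, hd, Complex.norm_real,
    Complex.norm_real, Real.norm_of_nonneg (by linarith), Real.norm_of_nonneg hδ.le]
  nlinarith

/-- **Parametrized lattice polygons close to the boundary curve.** -/
theorem exists_close (Φ : ℂ ≃ₜ ℂ) {ε : ℝ} (hε : 0 < ε) : ∃ h₀ > 0, ∀ δ > 0, δ ≤ h₀ →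
    ∃ (n : ℕ) (p : ZMod n → ℤ × ℤ) (γ : ℝ → ℂ), E6.IsPolygon p ∧ P167Z.IsSimpleClosed γ ∧
      γ '' Icc 0 1 = curve δ p ∧ ∀ t ∈ Icc (0 : ℝ) 1, dist (γ t) (bdry Φ t) < ε := by
  have hπ := Real.pi_pos
  obtain ⟨h₀, hh₀, H⟩ := H634.Apx.exists_polygon (P153.R2.R1.jcurve_FC (H72.Lit.conj Φ))
    (η := ε / 3) (by positivity)
  obtain ⟨l0, hl0, hu⟩ := Metric.uniformContinuousOn_iff.1
    (isCompact_Icc.uniformContinuousOn_of_continuous
      (continuous_bdry Φ).continuousOn (s := Icc (0 : ℝ) 1)) (ε / 3) (by positivity)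
  refine ⟨min h₀ (ε / 3), lt_min hh₀ (by positivity), fun δ hδ hδ0 => ?_⟩
  obtain ⟨n, k, p, s, hp, -, -, hs, s0, -, sn, hsx⟩ := H δ hδ (hδ0.trans (min_le_left _ _))
  have hδ1 : δ ≤ ε / 3 := hδ0.trans (min_le_right _ _)
  have hτ : Monotone fun i => s i / (2 * Real.pi) := fun i j hij => by
    have := hs hij
    dsimp only
    gcongr
  have t0 : s 0 / (2 * Real.pi) = 0 := by rw [s0, zero_div]
  have tN : s n / (2 * Real.pi) = 1 := by rw [sn]; field_simp
  obtain ⟨x, hxc, hxm, x0, x1, hx⟩ := exists_time (N := n) (by have := hp.1; omega) hτ t0 tN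
    (lam := min (1 / 2) (l0 / 2)) (lt_min (by norm_num) (by positivity))
    (lt_of_le_of_lt (min_le_left _ _) (by norm_num))
  obtain ⟨g1, g2⟩ := param_of_time hδ hp hxc hxm x0 x1
  refine ⟨n, p, _, hp, g1, g2, fun t ht => ?_⟩
  obtain ⟨i, hi, h1, h2, t', ht', h3⟩ := hx t ht
  have hI : t' ∈ Icc (0 : ℝ) 1 :=
    ⟨(t0.ge.trans (hτ (Nat.zero_le i))).trans ht'.1,
      ht'.2.trans ((hτ (show i + 1 ≤ n by omega)).trans tN.le)⟩
  have b1 := hsx i hi (t' * (2 * Real.pi))
    ⟨(div_le_iff₀ (by positivity)).1 ht'.1, (le_div_iff₀ (by positivity)).1 ht'.2⟩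
  have hF : FC (H72.Lit.conj Φ) (t' * (2 * Real.pi)) = bdry Φ t' := by
    have h4 : FC (H72.Lit.conj Φ) (t' * (2 * Real.pi)) = _ := H72.Lit.toC_conj_circ Φ _
    rw [h4, mul_div_cancel_right₀ _ (by positivity)]
  rw [hF] at b1
  have b1' : dist ((δ : ℂ) * pt (p i)) (bdry Φ t') < ε / 3 := b1
  have b2 := hu t' hI t ht (by
    rw [dist_comm, Real.dist_eq]
    exact lt_of_le_of_lt h3 (lt_of_le_of_lt (min_le_right _ _) (by linarith)))
  have b3 := dist_PF6 hδ hp h1 h2
  have b4 := dist_triangle4 (E6.PF6 p δ (x t)) ((δ : ℂ) * pt (p i)) (bdry Φ t') (bdry Φ t)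
  linarith

end Vale.Agent.P145W51
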