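import Vale.Agent.P145W.Defs

/-!
The bounded faces of the graph of a polygon, as components of the complement of its drawing.
-/

set_option autoImplicit false

namespace Vale.Agent.P145W

open Set

/-- The drawing of the graph of the polygon in the plane: its vertices and its edges. -/
def Polygon.drawing (P : Polygon) : Set ℂ :=
  {z | (∃ v : P.V, z = P.δ * pt v) ∨
    ∃ u v : P.V, P.Edge u v ∧ z ∈ segment ℝ (P.δ * pt u) (P.δ * pt v)}

/-- The open square of `δℤ²` with the bottom-left corner `δ f`. -/
def Polygon.square (P : Polygon) (f : ℤ × ℤ) : Set ℂ :=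
  {z | ∃ x ∈ Ioo (0 : ℝ) 1, ∃ y ∈ Ioo (0 : ℝ) 1, z = P.δ * (pt f + (x + y * Complex.I))}

/-- The squares of `P.F` are the bounded faces of the plane graph: `f ↦ square f` is a bijection
from `P.F` onto the set of the bounded components of the complement of the drawing. The corners of a
face are the vertices on its boundary, and the edge `uv` separates the faces `f ≠ f'` iff it is on
the boundary of both. -/
def Faces : Prop :=
  ∀ P : Polygon, BijOn P.square P.F
      {C | Bornology.IsBounded C ∧ ∃ z ∉ P.drawing, C = connectedComponentIn P.drawingᶜ z} ∧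
    (∀ v f, P.Corner v f ↔ P.δ * pt v ∈ frontier (P.square f)) ∧
    ∀ u v f f', P.Sep u v f f' ↔ P.Edge u v ∧ f ≠ f' ∧
      segment ℝ (P.δ * pt u) (P.δ * pt v) ⊆ frontier (P.square f) ∩ frontier (P.square f')

end Vale.Agent.P145W
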