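import Vale.Agent.P145W51.Main
import Vale.Agent.P145W51.FaceDefs

/-!
# P145, literal form: the bounded faces of the graph are the squares inside the polygon
-/

namespace Vale.Agent.P145W51

open Set Filter Topology Metric
open Vale.Agent.P167 Vale.Agent.P145 Vale.Agent.P145W
open Vale.Agent.P167.E6 (D6 region)
open Vale.Agent.P167.H634.Apx (ctr)

variable {P : Polygon} {S : Finset (ℤ × ℤ)} {δ : ℝ}

theorem square_eq (P : Polygon) (f : ℤ × ℤ) : P.square f = sq P.δ f := by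
  have hδ := P.pos
  ext z
  constructor
  · rintro ⟨x, hx, y, hy, rfl⟩
    have e1 : ((P.δ : ℂ) * (pt f + (x + y * Complex.I))).re = P.δ * (f.1 + x) := by simp [pt]
    have e2 : ((P.δ : ℂ) * (pt f + (x + y * Complex.I))).im = P.δ * (f.2 + y) := by simp [pt]
    rw [sq, mem_ofPred_eq, e1, e2]
    refine ⟨?_, ?_, ?_, ?_⟩ <;> nlinarith [hx.1, hx.2, hy.1, hy.2]
  · rintro ⟨h1, h2, h3, h4⟩
    refine ⟨z.re / P.δ - f.1, ⟨?_, ?_⟩, z.im / P.δ - f.2, ⟨?_, ?_⟩, ?_⟩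
    · rw [sub_pos, lt_div_iff₀ hδ]
      linarith
    · rw [sub_lt_iff_lt_add, div_lt_iff₀ hδ]
      linarith
    · rw [sub_pos, lt_div_iff₀ hδ]
      linarith
    · rw [sub_lt_iff_lt_add, div_lt_iff₀ hδ]
      linarith
    · apply Complex.ext
      · simp [pt]
        field_simp
      · simp [pt]
        field_simp

theorem mem_hseg (hδ : 0 < δ) {a : ℤ × ℤ} {z : ℂ} (h1 : δ * a.1 ≤ z.re) (h2 : z.re ≤ δ * (a.1 + 1))
    (h3 : z.im = δ * a.2) : z ∈ segment ℝ ((δ : ℂ) * pt a) (δ * pt (a + (1, 0))) := by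
  refine ⟨1 - (z.re / δ - a.1), z.re / δ - a.1, ?_, ?_, by ring, ?_⟩
  · rw [sub_nonneg, sub_le_iff_le_add, div_le_iff₀ hδ]
    linarith
  · rw [sub_nonneg, le_div_iff₀ hδ]
    linarith
  · apply Complex.ext
    · simp [pt]
      field_simp
      ring
    · simp [pt, h3]
      ring

theorem mem_vseg (hδ : 0 < δ) {a : ℤ × ℤ} {z : ℂ} (h1 : δ * a.2 ≤ z.im) (h2 : z.im ≤ δ * (a.2 + 1))
    (h3 : z.re = δ * a.1) : z ∈ segment ℝ ((δ : ℂ) * pt a) (δ * pt (a + (0, 1))) := by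
  refine ⟨1 - (z.im / δ - a.2), z.im / δ - a.2, ?_, ?_, by ring, ?_⟩
  · rw [sub_nonneg, sub_le_iff_le_add, div_le_iff₀ hδ]
    linarith
  · rw [sub_nonneg, le_div_iff₀ hδ]
    linarith
  · apply Complex.ext
    · simp [pt, h3]
      ring
    · simp [pt]
      field_simp
      ring

/-- The closed square. -/
def csq (δ : ℝ) (f : ℤ × ℤ) : Set ℂ :=
  {z | δ * f.1 ≤ z.re ∧ z.re ≤ δ * (f.1 + 1) ∧ δ * f.2 ≤ z.im ∧ z.im ≤ δ * (f.2 + 1)}

theorem isClosed_csq (δ : ℝ) (f : ℤ × ℤ) : IsClosed (csq δ f) :=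
  (isClosed_le continuous_const Complex.continuous_re).inter
    ((isClosed_le Complex.continuous_re continuous_const).inter
    ((isClosed_le continuous_const Complex.continuous_im).inter
    (isClosed_le Complex.continuous_im continuous_const)))

theorem side_mem (h : Graph P S) {f a : ℤ × ℤ} (hf : f ∈ S) (r : Fin 4) {z : ℂ}
    (h1 : (a.1 = f.1 ∨ a.1 = f.1 + 1) ∧ (a.2 = f.2 ∨ a.2 = f.2 + 1))
    (h2 : ((a + H72.Lit.dir r).1 = f.1 ∨ (a + H72.Lit.dir r).1 = f.1 + 1) ∧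
      ((a + H72.Lit.dir r).2 = f.2 ∨ (a + H72.Lit.dir r).2 = f.2 + 1))
    (hz : z ∈ segment ℝ ((P.δ : ℂ) * pt a) (P.δ * pt (a + H72.Lit.dir r))) : z ∈ P.drawing := by
  have hV : ∀ v : ℤ × ℤ, (v.1 = f.1 ∨ v.1 = f.1 + 1) ∧ (v.2 = f.2 ∨ v.2 = f.2 + 1) → v ∈ P.V := by
    intro v hv
    rw [← h.verts]
    exact mem_verts.2 ⟨f, hf, by omega⟩
  have hF : f ∈ P.F := h.faces ▸ hf
  exact Or.inr ⟨⟨a, hV a h1⟩, ⟨_, hV _ h2⟩,
    (h.edge _ _).2 ⟨H72.Lit.dist_one.2 ⟨r, rfl⟩, ⟨f, hF⟩, h1, h2⟩, hz⟩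

/-- The sides of an enclosed face are in the drawing. -/
theorem mem_sq_of (h : Graph P S) {f : ℤ × ℤ} (hf : f ∈ S) {z : ℂ} (hz : z ∈ csq P.δ f)
    (hd : z ∉ P.drawing) : z ∈ sq P.δ f := by
  have hδ := P.pos
  obtain ⟨h1, h2, h3, h4⟩ := hz
  refine ⟨lt_of_le_of_ne h1 fun e => hd ?_, lt_of_le_of_ne h2 fun e => hd ?_,
    lt_of_le_of_ne h3 fun e => hd ?_, lt_of_le_of_ne h4 fun e => hd ?_⟩
  · exact side_mem h hf 1 (a := f) (by simp) (by simp [H72.Lit.dir]) (mem_vseg hδ h3 h4 e.symm)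
  · exact side_mem h hf 1 (a := f + (1, 0)) (by simp) (by simp [H72.Lit.dir])
      (mem_vseg hδ (by simpa using h3) (by simpa using h4) (by simpa using e))
  · exact side_mem h hf 0 (a := f) (by simp) (by simp [H72.Lit.dir]) (mem_hseg hδ h1 h2 e.symm)
  · exact side_mem h hf 0 (a := f + (0, 1)) (by simp) (by simp [H72.Lit.dir])
      (mem_hseg hδ (by simpa using h1) (by simpa using h2) (by simpa using e))

theorem not_int (hδ : 0 < δ) {a b : ℤ} (h1 : δ * a < δ * b) (h2 : δ * b < δ * (a + 1)) : False := by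
  have a1 : (a : ℝ) < b := lt_of_mul_lt_mul_left h1 hδ.le
  have a2 : (b : ℝ) < a + 1 := lt_of_mul_lt_mul_left h2 hδ.le
  have b1 : a < b := by exact_mod_cast a1
  have b2 : b < a + 1 := by exact_mod_cast a2
  omega

/-- The open squares do not meet the drawing. -/
theorem sq_subset (P : Polygon) (f : ℤ × ℤ) : sq P.δ f ⊆ P.drawingᶜ := by
  have hδ := P.pos
  rintro z ⟨h1, h2, h3, h4⟩ (⟨v, rfl⟩ | ⟨u, v, ⟨hd, -⟩, a, b, ha, hb, hab, rfl⟩)
  · have e1 : ((P.δ : ℂ) * pt v).re = P.δ * v.1.1 := by simp [pt]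
    rw [e1] at h1 h2
    exact not_int hδ h1 h2
  · obtain ⟨r, hr⟩ := H72.Lit.dist_one.1 hd
    have e1 : (a • ((P.δ : ℂ) * pt u) + b • ((P.δ : ℂ) * pt v)).re =
        P.δ * (a * u.1.1 + b * v.1.1) := by
      simp [pt]
      ring
    have e2 : (a • ((P.δ : ℂ) * pt u) + b • ((P.δ : ℂ) * pt v)).im =
        P.δ * (a * u.1.2 + b * v.1.2) := by
      simp [pt]
      ring
    have hc : v.1.1 = u.1.1 ∨ v.1.2 = u.1.2 := by
      rw [hr]
      fin_cases r <;> simp [H72.Lit.dir]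
    rcases hc with hc | hc
    · rw [e1, hc, ← add_mul, hab, one_mul] at h1 h2
      exact not_int hδ h1 h2
    · rw [e2, hc, ← add_mul, hab, one_mul] at h3 h4
      exact not_int hδ h3 h4

theorem drawing_subset (P : Polygon) : P.drawing ⊆ P.curve ∪ P.inside := by
  rintro z (⟨v, rfl⟩ | ⟨u, v, ⟨-, hs⟩, hz⟩)
  · exact v.2
  · exact hs hz

theorem comp_eq (h : Graph P S) {f : ℤ × ℤ} (hf : f ∈ S) {z : ℂ} (hz : z ∈ sq P.δ f) :
    connectedComponentIn P.drawingᶜ z = sq P.δ f := by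
  apply Subset.antisymm
  · refine isPreconnected_connectedComponentIn.subset_left_of_subset_union (isOpen_sq P.δ f)
      (isClosed_csq P.δ f).isOpen_compl ?_ ?_
      ⟨z, mem_connectedComponentIn (sq_subset P f hz), hz⟩
    · have hs : sq P.δ f ⊆ csq P.δ f := fun _ ⟨h1, h2, h3, h4⟩ => ⟨h1.le, h2.le, h3.le, h4.le⟩
      exact disjoint_compl_right.mono_left hs
    · intro w hw
      by_cases hc : w ∈ csq P.δ f
      · exact Or.inl (mem_sq_of h hf hc (connectedComponentIn_subset _ _ hw))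
      · exact Or.inr hc
  · exact (convex_sq P.δ f).isPreconnected.subset_connectedComponentIn hz (sq_subset P f)

theorem bijOn_square (P : Polygon) : BijOn P.square P.F
    {C | Bornology.IsBounded C ∧ ∃ z ∉ P.drawing, C = connectedComponentIn P.drawingᶜ z} := by
  have hδ := P.pos
  obtain ⟨S, h⟩ := pol P
  have hE := encl_of_graph h
  have hU : P.curve ∪ P.inside = region P.δ S := hE.union_eq hδ
  rw [← h.faces]
  refine ⟨fun f hf => ?_, fun f _ g _ he => ?_, fun C ⟨hb, z, hz, hC⟩ => ?_⟩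
  · rw [mem_ofPred_eq, square_eq]
    exact ⟨(E6.isBounded_D6 hδ S).subset (sq_subset_D6 hf), _, sq_subset P f (ctr_mem_sq hδ f),
      (comp_eq h hf (ctr_mem_sq hδ f)).symm⟩
  · rw [square_eq, square_eq] at he
    obtain ⟨h1, h2, h3, h4⟩ := ctr_mem_sq hδ f
    obtain ⟨k1, k2, k3, k4⟩ : (P.δ : ℂ) * ctr f ∈ sq P.δ g := he ▸ ctr_mem_sq hδ f
    exact Prod.ext (int_eq_of hδ h1 h2 k1.le k2.le) (int_eq_of hδ h3 h4 k3.le k4.le)
  · by_cases hr : z ∈ region P.δ S
    · obtain ⟨f, hf, hzf⟩ := hr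
      exact ⟨f, hf, by rw [square_eq, hC, comp_eq h hf (mem_sq_of h hf hzf hz)]⟩
    · exfalso
      refine H72.Lit.not_isBounded_compl_region hδ S (hb.subset ?_)
      rw [hC]
      refine (hE.ext _ hδ).subset_connectedComponentIn hr ?_
      rw [compl_subset_compl, ← hU]
      exact drawing_subset P

theorem frontier_sq (hδ : 0 < δ) (f : ℤ × ℤ) : frontier (sq δ f) = csq δ f \ sq δ f := by
  rw [(isOpen_sq δ f).frontier_eq]
  congr 1
  have e : sq δ f = Ioo (δ * f.1) (δ * (f.1 + 1)) ×ℂ Ioo (δ * f.2) (δ * (f.2 + 1)) := by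
    ext z
    simp only [sq, mem_ofPred_eq, Complex.mem_reProdIm, mem_Ioo, and_assoc]
  rw [e, Complex.closure_reProdIm, closure_Ioo (by nlinarith : δ * f.1 < δ * (f.1 + 1)).ne,
    closure_Ioo (by nlinarith : δ * f.2 < δ * (f.2 + 1)).ne]
  ext z
  simp only [csq, mem_ofPred_eq, Complex.mem_reProdIm, mem_Icc, and_assoc]

theorem corner_iff (P : Polygon) (v : P.V) (f : P.F) :
    P.Corner v f ↔ P.δ * pt v ∈ csq P.δ f := by
  have hδ := P.pos
  have e1 : ((P.δ : ℂ) * pt v).re = P.δ * v.1.1 := by simp [pt]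
  have e2 : ((P.δ : ℂ) * pt v).im = P.δ * v.1.2 := by simp [pt]
  rw [csq, mem_ofPred_eq, e1, e2, mul_le_mul_iff_right₀ hδ, mul_le_mul_iff_right₀ hδ,
    mul_le_mul_iff_right₀ hδ, mul_le_mul_iff_right₀ hδ]
  unfold Polygon.Corner
  norm_cast
  omega

theorem corner_iff' (P : Polygon) (v : P.V) (f : P.F) :
    P.Corner v f ↔ P.δ * pt v ∈ frontier (P.square f) := by
  rw [square_eq, frontier_sq P.pos, corner_iff]
  exact ⟨fun h => ⟨h, fun h' => sq_subset P f h' (Or.inl ⟨v, rfl⟩)⟩, fun h => h.1⟩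

theorem seg_iff (P : Polygon) {u v : P.V} (he : P.Edge u v) (f : P.F) :
    segment ℝ (P.δ * pt u) (P.δ * pt v) ⊆ frontier (P.square f) ↔ P.Corner u f ∧ P.Corner v f := by
  constructor
  · intro h
    exact ⟨(corner_iff' P u f).2 (h (left_mem_segment _ _ _)),
      (corner_iff' P v f).2 (h (right_mem_segment _ _ _))⟩
  · rintro ⟨h1, h2⟩ z hz
    rw [square_eq, frontier_sq P.pos]
    exact ⟨(H72.Lit.convex_sq P.δ f).segment_subset ((corner_iff P u f).1 h1)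
      ((corner_iff P v f).1 h2) hz, fun h' => sq_subset P f h' (Or.inr ⟨u, v, he, hz⟩)⟩

/-- **The bounded faces of the plane graph are the squares inside the polygon.** -/
theorem faces : Faces := by
  refine fun P => ⟨bijOn_square P, corner_iff' P, fun u v f f' => and_congr_right fun he => ?_⟩
  rw [subset_inter_iff, seg_iff P he, seg_iff P he]
  tauto

end Vale.Agent.P145W51
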