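import Vale.Agent.P145W.Props
import Vale.Agent.P145W51.Exi

/-!
# P145, literal form: the blocks `JOR`, `POL`, `APX`, `HasApprox`
-/

namespace Vale.Agent.P145W51

open Set Filter Topology Metric
open Vale.Agent.P167 Vale.Agent.P145 Vale.Agent.P145W
open Vale.Agent.P167.E6 (D6 region)
open Vale.Agent.P167.H72.Lit (bdry)

theorem exists_bdry {D : Set ℂ} {β : ℝ → ℂ} (hD : IsJordan D) (hβ : Param β (frontier D)) :
    ∃ Φ : ℂ ≃ₜ ℂ, Φ '' ball 0 1 = D ∧ ∀ t ∈ Icc (0 : ℝ) 1, bdry Φ t = β t := by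
  obtain ⟨Φ, h1, h2, -⟩ := P167Z.exists_homeo ⟨hβ.1, hβ.2.1, hβ.2.2.1⟩ hD.1 hD.2.1 hD.2.2.1
    hβ.2.2.2.symm
  exact ⟨Φ, h1, h2⟩

/-- **Schoenflies.** -/
theorem jor : JOR := by
  intro D hD
  obtain ⟨β, hβ⟩ := hD.2.2.2
  obtain ⟨Φ, h1, -⟩ := exists_bdry hD hβ
  exact ⟨⟨Φ, h1.symm⟩, h1 ▸ jordanDomain_of_homeo Φ⟩

theorem isPolygon (P : Polygon) : E6.IsPolygon P.p := isPolygon_of_dist P.two_lt P.inj P.nn

theorem curve_eq (P : Polygon) : P.curve = H72.Lit.curve P.δ P.p := rfl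

theorem inside_eq (P : Polygon) : P.inside = H72.Lit.inside P.δ P.p := rfl

theorem mem_F {P : Polygon} {f : ℤ × ℤ} : f ∈ P.F ↔ sq P.δ f ⊆ P.inside := by
  have hδ := P.pos
  constructor
  · intro h z ⟨h1, h2, h3, h4⟩
    have e : z = P.δ * (pt f + ((z.re / P.δ - f.1 : ℝ) + (z.im / P.δ - f.2 : ℝ) * Complex.I)) := by
      apply Complex.ext
      · simp [pt]
        field_simp
      · simp [pt]
        field_simp
    rw [e]
    refine h _ ⟨?_, ?_⟩ _ ⟨?_, ?_⟩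
    · rw [sub_pos, lt_div_iff₀ hδ]
      linarith
    · rw [sub_lt_iff_lt_add, div_lt_iff₀ hδ]
      linarith
    · rw [sub_pos, lt_div_iff₀ hδ]
      linarith
    · rw [sub_lt_iff_lt_add, div_lt_iff₀ hδ]
      linarith
  · intro h x hx y hy
    refine h ?_
    have e1 : ((P.δ : ℂ) * (pt f + (x + y * Complex.I))).re = P.δ * (f.1 + x) := by simp [pt]
    have e2 : ((P.δ : ℂ) * (pt f + (x + y * Complex.I))).im = P.δ * (f.2 + y) := by simp [pt]
    rw [sq, mem_ofPred_eq, e1, e2]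
    refine ⟨?_, ?_, ?_, ?_⟩ <;> nlinarith [hx.1, hx.2, hy.1, hy.2]

theorem on_curve (P : Polygon) (v : ℤ × ℤ) : P.δ * pt v ∈ P.curve ↔ ∃ i, P.p i = v := by
  constructor
  · intro h
    obtain ⟨i, hi⟩ := mem_iUnion.1 h
    obtain ⟨a, b, ha, hb, hab, he⟩ := hi
    have : NeZero P.N := ⟨by have := P.two_lt; omega⟩
    have h1 : H72.Lit.line P.δ P.p ((i.val : ℤ) + b) = P.δ * H72.Lit.pt v := by
      rw [H72.Lit.line_of_mem (i := (i.val : ℤ)) (by linarith) (by linarith)]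
      have e : ((i.val : ℤ) : ZMod P.N) = i := by simp
      have e' : a = 1 - b := by linarith
      rw [e, add_sub_cancel_left]
      refine Eq.trans ?_ he
      rw [e', Complex.real_smul, Complex.real_smul]
      have a : ∀ v, H72.Lit.pt v = pt v := fun _ => rfl
      simp only [a]
      push_cast
      ring
    obtain ⟨j, -, hj⟩ := H72.Lit.eq_of_line P.pos (isPolygon P).2.2 h1
    exact ⟨j, hj.symm⟩
  · rintro ⟨i, rfl⟩
    exact mem_iUnion.2 ⟨i, left_mem_segment _ _ _⟩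

theorem graph_of_encl {P : Polygon} {S : Finset (ℤ × ℤ)} (h : Encl P.p S) : Graph P S := by
  have hδ := P.pos
  have hF : ∀ f, f ∈ S ↔ f ∈ P.F := fun f => (h.mem_iff_sq hδ).trans mem_F.symm
  have hU : P.curve ∪ P.inside = region P.δ S := h.union_eq hδ
  refine ⟨Set.ext hF, ?_, isPolygon_iff.2 (isPolygon P), h.encl,
    Set.ext fun v => h.mem_verts_iff hδ, on_curve P, fun u v => ?_⟩
  · have h1 : P.δ * pt (P.p 0) ∈ region P.δ S := hU ▸ Or.inl ((on_curve P _).2 ⟨0, rfl⟩)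
    obtain ⟨f, hf, -⟩ := h1
    exact ⟨f, hf⟩
  · refine and_congr_right fun hd => ?_
    rw [hU]
    constructor
    · intro hs
      obtain ⟨f, hf, a1, a2, a3, a4⟩ := H72.Lit.mid_region hδ hs
      obtain ⟨r, hr⟩ := H72.Lit.dist_one.1 hd
      have b1 := congrArg Prod.fst hr
      have b2 := congrArg Prod.snd hr
      refine ⟨⟨f, (hF f).1 hf⟩, ?_⟩
      unfold Polygon.Corner
      dsimp only
      fin_cases r <;> simp [H72.Lit.dir] at b1 b2 <;> omega
    · rintro ⟨f, h1, h2⟩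
      unfold Polygon.Corner at h1 h2
      exact H72.Lit.seg_sub hδ ((hF f).2 f.2) (by omega) (by omega)

/-- **The graph of a polygon.** -/
theorem pol : POL := fun P => by
  obtain ⟨S, hS⟩ := exists_encl (isPolygon P)
  exact ⟨S, graph_of_encl hS⟩

theorem encl_of_graph {P : Polygon} {S : Finset (ℤ × ℤ)} (h : Graph P S) : Encl P.p S := by
  obtain ⟨S', hS⟩ := exists_encl (isPolygon P)
  have : S = S' := Finset.coe_injective (h.faces.trans (graph_of_encl hS).faces.symm)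
  rwa [this]

theorem dist_eR (z w : ℂ) : dist (eR z) (eR w) ≤ dist z w := by
  rw [Prod.dist_eq, Complex.dist_eq]
  refine max_le ?_ ?_
  · exact Complex.abs_re_le_norm (z - w)
  · exact Complex.abs_im_le_norm (z - w)

/-- **Approximations.** -/
theorem apx : APX := by
  intro D P S _ ⟨h1, ⟨β, γ, hβ, hγ, hu⟩, h3⟩ hG
  refine ⟨fun n => (P n).pos, h1, fun n => (hG n).poly, fun n => (hG n).encl, fun ε hε => ?_,
    fun K hK hKc => ?_⟩
  · filter_upwards [Metric.tendstoUniformlyOn_iff.1 hu (ε / 2) (by positivity)] with n hn i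
    have a1 : ((P n).δ : ℂ) * pt ((P n).p i) ∈ γ n '' Icc 0 1 := by
      rw [(hγ n).2.2.2]
      exact (on_curve _ _).2 ⟨i, rfl⟩
    obtain ⟨t, ht, he⟩ := a1
    have a2 : β t ∈ closure D := frontier_subset_closure (hβ.2.2.2 ▸ ⟨t, ht, rfl⟩)
    obtain ⟨z, hz, hz'⟩ := Metric.mem_closure_iff.1 a2 (ε / 2) (by positivity)
    refine ⟨eR z, ⟨z, hz, rfl⟩, ?_⟩
    have e : ((P n).δ * (((P n).p i).1 : ℝ), (P n).δ * (((P n).p i).2 : ℝ)) = eR (γ n t) := by
      rw [he]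
      ext <;> simp [pt]
    rw [e]
    have a3 := hn t ht
    have a4 := dist_triangle (γ n t) (β t) z
    rw [dist_comm] at a3
    linarith [dist_eR (γ n t) z]
  · have hK' : eR.symm '' K ⊆ D := by
      rintro _ ⟨z, hz, rfl⟩
      obtain ⟨w, hw, rfl⟩ := hK hz
      rwa [eR.symm_apply_apply]
    filter_upwards [h3 _ hK' (hKc.image eR.symm.continuous)] with n hn z hz
    have a1 := hn ⟨z, hz, rfl⟩
    rw [inside_eq, (encl_of_graph (hG n)).inside_eq _ (P n).pos] at a1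
    have a2 := floor_mem (P n).pos a1
    have e1 : (eR.symm z).re = z.1 := by simp
    have e2 : (eR.symm z).im = z.2 := by simp
    rwa [e1, e2] at a2

/-- Uniform convergence of the boundary curves implies that the compact subsets are eventually
enclosed. -/
theorem eventually_inside {ι : Type*} {l : Filter ι} {D : Set ℂ} (hD : IsJordan D)
    {P : ι → Polygon} {β : ℝ → ℂ} {γ : ι → ℝ → ℂ} (hβ : Param β (frontier D))
    (hγ : ∀ i, Param (γ i) (P i).curve) (hu : TendstoUniformlyOn γ β l (Icc 0 1)) {K : Set ℂ}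
    (hK : K ⊆ D) (hKc : IsCompact K) : ∀ᶠ i in l, K ⊆ (P i).inside := by
  obtain ⟨Φ, h1, h2⟩ := exists_bdry hD hβ
  have hdisj : Disjoint K (frontier D) := by
    rw [Set.disjoint_left]
    intro z hz hz'
    rw [hD.1.frontier_eq] at hz'
    exact hz'.2 (hK hz)
  obtain ⟨r, hr, hr'⟩ := hdisj.exists_thickenings hKc isClosed_frontier
  filter_upwards [Metric.tendstoUniformlyOn_iff.1 hu r hr] with i hi z hz
  have a1 := inside_of_close Φ (h1 ▸ hK hz) (hγ i).1 (hγ i).2.2.1 (fun t ht => by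
    rw [h2 t ht, ← dist_eq_norm, ← dist_eq_norm, dist_comm]
    refine (hi t ht).trans_le ?_
    by_contra hlt
    push Not at hlt
    exact (Set.disjoint_left.1 hr') (mem_thickening_iff.2 ⟨z, hz, hlt⟩)
      (self_subset_thickening hr _ (hβ.2.2.2 ▸ ⟨t, ht, rfl⟩)))
  rwa [(hγ i).2.2.2] at a1

/-- Approximations for any family of meshes tending to `0`, and any parametrization of the
boundary. -/
theorem exists_approx {ι : Type} {l : Filter ι} {D : Set ℂ} (hD : IsJordan D) {β : ℝ → ℂ}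
    (hβ : Param β (frontier D)) {δ : ι → ℝ} (hδ : ∀ i, 0 < δ i) (hδ0 : Tendsto δ l (𝓝 0)) :
    ∃ (P : ι → Polygon) (γ : ι → ℝ → ℂ), (∀ i, (P i).δ = δ i) ∧
      (∀ i, Param (γ i) (P i).curve) ∧ TendstoUniformlyOn γ β l (Icc 0 1) := by
  obtain ⟨Φ, h1, h2⟩ := exists_bdry hD hβ
  have H := fun m : ℕ => exists_close Φ (ε := 1 / (m + 1)) (by positivity)
  choose h₀ hh₀ H using H
  have hex : ∀ (i : ι) (m : ℕ), ∃ (P : Polygon) (γ : ℝ → ℂ), (P.δ = δ i ∧ Param γ P.curve) ∧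
      (δ i ≤ h₀ m → ∀ t ∈ Icc (0 : ℝ) 1, dist (γ t) (β t) < 1 / (m + 1)) := by
    intro i m
    by_cases hc : δ i ≤ h₀ m
    · obtain ⟨n, p, γ, hp, g1, g2, g3⟩ := H m (δ i) (hδ i) hc
      exact ⟨⟨δ i, n, p, hδ i, hp.1, hp.2.1, dist_of_isPolygon hp⟩, γ,
        ⟨rfl, g1.1, g1.2.1, g1.2.2, g2⟩, fun _ t ht => h2 t ht ▸ g3 t ht⟩
    · obtain ⟨n, p, -, hp, -⟩ := H m (h₀ m) (hh₀ m) le_rfl
      have hn : (0 : ℝ) < n := by
        have : 0 < n := by have := hp.1; omega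
        exact_mod_cast this
      obtain ⟨g1, g2⟩ := param_of_time (hδ i) hp (x := fun t => n * t) (by fun_prop)
        (fun a b hab => mul_lt_mul_of_pos_left hab hn) (mul_zero _) (mul_one _)
      exact ⟨⟨δ i, n, p, hδ i, hp.1, hp.2.1, dist_of_isPolygon hp⟩, _,
        ⟨rfl, g1.1, g1.2.1, g1.2.2, g2⟩, fun h => absurd h hc⟩
  choose P γ hex1 hex2 using hex
  classical
  set m : ι → ℕ := fun i => Nat.findGreatest (fun m => δ i ≤ h₀ m) ⌊1 / δ i⌋₊ with hm
  refine ⟨fun i => P i (m i), fun i => γ i (m i), fun i => (hex1 i (m i)).1,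
    fun i => (hex1 i (m i)).2, Metric.tendstoUniformlyOn_iff.2 fun ε hε => ?_⟩
  obtain ⟨k, hk⟩ := exists_nat_one_div_lt hε
  filter_upwards [hδ0.eventually (ge_mem_nhds (hh₀ k)),
    hδ0.eventually (ge_mem_nhds (show (0 : ℝ) < 1 / (k + 1) by positivity))] with i a1 a2 t ht
  have a3 : k ≤ ⌊1 / δ i⌋₊ := by
    refine Nat.le_floor ?_
    rw [le_div_iff₀ (hδ i)]
    rw [le_div_iff₀ (by positivity)] at a2
    nlinarith [hδ i]
  have h3 : δ i ≤ h₀ (m i) := Nat.findGreatest_spec (P := fun m => δ i ≤ h₀ m) a3 a1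
  have h4 : k ≤ m i := Nat.le_findGreatest a3 a1
  rw [dist_comm]
  refine (hex2 i (m i) h3 t ht).trans (lt_of_le_of_lt ?_ hk)
  have h5 : (k : ℝ) ≤ m i := by exact_mod_cast h4
  exact one_div_le_one_div_of_le (by positivity) (by linarith)

/-- The same, as approximations along any filter. -/
theorem exists_approx' {ι : Type} {l : Filter ι} {D : Set ℂ} (hD : IsJordan D) {δ : ι → ℝ}
    (hδ : ∀ i, 0 < δ i) (hδ0 : Tendsto δ l (𝓝 0)) :
    ∃ P : ι → Polygon, (∀ i, (P i).δ = δ i) ∧ Approx l D P := by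
  obtain ⟨β, hβ⟩ := hD.2.2.2
  obtain ⟨P, γ, h1, h2, h3⟩ := exists_approx hD hβ hδ hδ0
  refine ⟨P, h1, ?_, ⟨β, γ, hβ, h2, h3⟩, fun K hK hKc => eventually_inside hD hβ h2 h3 hK hKc⟩
  simpa only [h1] using hδ0

/-- **Existence of approximations.** -/
theorem exi : HasApprox := fun _ hD _ hδ hδ0 => exists_approx' hD hδ hδ0

end Vale.Agent.P145W51
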