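import Vale.Agent.P145.JG.Defs
import Vale.Agent.P167.H72.Lit.Apx
import Vale.Agent.P167Z.Curve

/-!
# P145, literal form: Jordan domains, lattice polygons and the faces inside them
-/

namespace Vale.Agent.P145W51

open Set Filter Topology Metric
open Vale.Agent.P167.H72.Lit (pt curve inside)
open Vale.Agent.P167 Vale.Agent.P145
open Vale.Agent.P167.E6 (D6 region dir face)
open Vale.Agent.P167.H634.Apx (ctr)

/-! ### Jordan domains -/

theorem jordanDomain_of_homeo (Φ : ℂ ≃ₜ ℂ) :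
    JG.JordanDomain (Complex.equivRealProdCLM '' (Φ '' ball 0 1)) := by
  refine ⟨H72.Lit.conj Φ, ?_⟩
  rw [← H72.Lit.dom_conj, image_image]
  exact image_id' _

/-- **A bounded domain whose boundary is a simple closed curve is the image of the disc under a
homeomorphism of the plane** (theorem of Schoenflies). -/
theorem jordanDomain_of_curve {β : ℝ → ℂ} {D : Set ℂ} (h : P167Z.IsSimpleClosed β) (hD : IsOpen D)
    (hc : IsConnected D) (hb : Bornology.IsBounded D) (hf : frontier D = β '' Icc 0 1) :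
    JG.JordanDomain (Complex.equivRealProdCLM '' D) := by
  obtain ⟨Φ, h1, -⟩ := P167Z.exists_homeo h hD hc hb hf
  rw [← h1]
  exact jordanDomain_of_homeo Φ

/-! ### Polygons -/

variable {n : ℕ} {p : ZMod n → ℤ × ℤ} {S : Finset (ℤ × ℤ)} {δ : ℝ}

theorem three_lt (hp : E6.IsPolygon p) : 3 < n := by
  obtain ⟨h2, -, h⟩ := hp
  by_contra hc
  obtain rfl : n = 3 := by omega
  obtain ⟨r0, h0⟩ := h 0
  obtain ⟨r1, h1⟩ := h 1
  obtain ⟨r2, h2'⟩ := h 2
  have e0 : (0 : ZMod 3) + 1 = 1 := by decide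
  have e1 : (1 : ZMod 3) + 1 = 2 := by decide
  have e2 : (2 : ZMod 3) + 1 = 0 := by decide
  rw [e0] at h0
  rw [e1] at h1
  rw [e2] at h2'
  have key : ∀ a b c : Fin 4, dir a + dir b + dir c ≠ 0 := by decide
  apply key r0 r1 r2
  rw [h1, h0] at h2'
  linear_combination -h2'

theorem step_iff {v w : ℤ × ℤ} : (w - v = (1, 0) ∨ w - v = (-1, 0) ∨ w - v = (0, 1) ∨
    w - v = (0, -1)) ↔ ∃ r, w = v + dir r := by
  constructor
  · rintro (h | h | h | h)
    · exact ⟨0, by rw [show dir 0 = (1, 0) from rfl, ← h]; ring⟩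
    · exact ⟨2, by rw [show dir 2 = (-1, 0) from rfl, ← h]; ring⟩
    · exact ⟨1, by rw [show dir 1 = (0, 1) from rfl, ← h]; ring⟩
    · exact ⟨3, by rw [show dir 3 = (0, -1) from rfl, ← h]; ring⟩
  · rintro ⟨r, rfl⟩
    rw [add_sub_cancel_left]
    revert r
    decide

theorem isPolygon_iff : JG.IsPolygon p ↔ E6.IsPolygon p :=
  ⟨fun h => ⟨by have := h.1; omega, h.2.1, fun i => step_iff.1 (h.2.2 i)⟩,
    fun h => ⟨three_lt h, h.2.1, fun i => step_iff.2 (h.2.2 i)⟩⟩

theorem isPolygon_of_dist (h2 : 2 < n) (hi : Function.Injective p)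
    (hd : ∀ i, dist (pt (p i)) (pt (p (i + 1))) = 1) : E6.IsPolygon p :=
  ⟨h2, hi, fun i => H72.Lit.dist_one.1 (hd i)⟩

theorem dist_of_isPolygon (hp : E6.IsPolygon p) (i : ZMod n) :
    dist (pt (p i)) (pt (p (i + 1))) = 1 := H72.Lit.dist_one.2 (hp.2.2 i)

theorem isEdge_iff {a b : ℤ × ℤ} : JG.IsEdge p a b ↔
    (∃ i, p i = a ∧ p (i + 1) = b) ∨ ∃ i, p i = b ∧ p (i + 1) = a := exists_or

theorem isEdge_neg {a b : ℤ × ℤ} : JG.IsEdge (fun i => p (-i)) a b ↔ JG.IsEdge p a b := by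
  constructor
  · rintro ⟨i, h⟩
    refine ⟨-i - 1, ?_⟩
    rw [show -i - 1 + 1 = -i by ring, show -i - 1 = -(i + 1) by ring]
    exact h.symm.imp And.symm And.symm
  · rintro ⟨i, h⟩
    refine ⟨-i - 1, ?_⟩
    dsimp only
    rw [show -(-i - 1) = i + 1 by ring, show -(-i - 1 + 1) = i by ring]
    exact h.symm.imp And.symm And.symm

theorem encloses_of (hS : E6.Encloses p S) : JG.Encloses p S := by
  refine ⟨fun e => ?_, fun e => ?_⟩
  · have h1 := hS e 0
    have h2 := hS (e + (1, 0)) 2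
    have a1 : e + dir 0 = e + (1, 0) := rfl
    have a2 : e + (1, 0) + dir 2 = e := by ext <;> simp [dir]
    have a3 : face e 0 = e := by ext <;> simp [face]
    have a4 : face e (0 - 1) = e - (0, 1) := by
      rw [show (0 : Fin 4) - 1 = 3 from rfl]
      ext <;> simp [face, sub_eq_add_neg]
    have a5 : face (e + (1, 0)) 2 = e - (0, 1) := by ext <;> simp [face, sub_eq_add_neg]
    have a6 : face (e + (1, 0)) (2 - 1) = e := by
      rw [show (2 : Fin 4) - 1 = 1 from rfl]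
      ext <;> simp [face]
    rw [a1, a3, a4] at h1
    rw [a2, a5, a6] at h2
    rw [isEdge_iff, h1, h2]
    tauto
  · have h1 := hS e 1
    have h2 := hS (e + (0, 1)) 3
    have a1 : e + dir 1 = e + (0, 1) := rfl
    have a2 : e + (0, 1) + dir 3 = e := by ext <;> simp [dir]
    have a3 : face e 1 = e - (1, 0) := by ext <;> simp [face, sub_eq_add_neg]
    have a4 : face e (1 - 1) = e := by
      rw [show (1 : Fin 4) - 1 = 0 from rfl]
      ext <;> simp [face]
    have a5 : face (e + (0, 1)) 3 = e := by ext <;> simp [face]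
    have a6 : face (e + (0, 1)) (3 - 1) = e - (1, 0) := by
      rw [show (3 : Fin 4) - 1 = 2 from rfl]
      ext <;> simp [face, sub_eq_add_neg]
    rw [a1, a3, a4] at h1
    rw [a2, a5, a6] at h2
    rw [isEdge_iff, h1, h2]
    tauto

theorem encloses_of_neg (hS : E6.Encloses (fun i => p (-i)) S) : JG.Encloses p S := by
  have h := encloses_of hS
  exact ⟨fun e => by rw [← isEdge_neg]; exact h.1 e, fun e => by rw [← isEdge_neg]; exact h.2 e⟩

/-- The facts about the set of the faces enclosed by a polygon. -/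
structure Encl (p : ZMod n → ℤ × ℤ) (S : Finset (ℤ × ℤ)) : Prop where
  encl : JG.Encloses p S
  inside_eq : ∀ δ : ℝ, 0 < δ → inside δ p = D6 δ S
  frontier_eq : ∀ δ : ℝ, 0 < δ → frontier (D6 δ S) = curve δ p
  ext : ∀ δ : ℝ, 0 < δ → IsPreconnected (region δ S)ᶜ

/-- **The Jordan curve theorem for lattice polygons.** -/
theorem exists_encl (hp : E6.IsPolygon p) : ∃ S, Encl p S := by
  have hn : n ≠ 0 := by have := hp.1; omega
  have : NeZero n := ⟨hn⟩
  obtain ⟨S, hS | hS⟩ := H634.Apx.exists_encloses hp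
  · exact ⟨S, encloses_of hS, fun δ hδ => H72.Lit.inside_eq hδ hp hS,
      fun δ hδ => by rw [H72.Lit.curve_eq hn, E6.frontier_D6 hδ hp hS],
      fun δ hδ => H72.Lit.isPreconnected_compl_region hδ hp hS⟩
  · have hq := H634.Apx.isPolygon_neg hp
    exact ⟨S, encloses_of_neg hS,
      fun δ hδ => by rw [← H72.Lit.inside_neg, H72.Lit.inside_eq hδ hq hS],
      fun δ hδ => by rw [← H72.Lit.curve_neg, H72.Lit.curve_eq hn, E6.frontier_D6 hδ hq hS],
      fun δ hδ => H72.Lit.isPreconnected_compl_region hδ hq hS⟩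

theorem Encl.closure_inside (h : Encl p S) (hδ : 0 < δ) : closure (inside δ p) = region δ S := by
  rw [h.inside_eq δ hδ, E6.closure_D6 hδ S]

/-- On or inside the polygon. -/
theorem Encl.union_eq (h : Encl p S) (hδ : 0 < δ) : curve δ p ∪ inside δ p = region δ S := by
  rw [← E6.closure_D6 hδ S, closure_eq_self_union_frontier, h.frontier_eq δ hδ, h.inside_eq δ hδ,
    union_comm]

/-! ### Faces -/

/-- The open square of the face `f`. -/
def sq (δ : ℝ) (f : ℤ × ℤ) : Set ℂ :=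
  {z | δ * f.1 < z.re ∧ z.re < δ * (f.1 + 1) ∧ δ * f.2 < z.im ∧ z.im < δ * (f.2 + 1)}

theorem isOpen_sq (δ : ℝ) (f : ℤ × ℤ) : IsOpen (sq δ f) :=
  (isOpen_lt continuous_const Complex.continuous_re).inter
    ((isOpen_lt Complex.continuous_re continuous_const).inter
    ((isOpen_lt continuous_const Complex.continuous_im).inter
    (isOpen_lt Complex.continuous_im continuous_const)))

theorem convex_sq (δ : ℝ) (f : ℤ × ℤ) : Convex ℝ (sq δ f) :=
  (convex_halfSpace_re_gt _).inter ((convex_halfSpace_re_lt _).inter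
    ((convex_halfSpace_im_gt _).inter (convex_halfSpace_im_lt _)))

theorem ctr_mem_sq (hδ : 0 < δ) (f : ℤ × ℤ) : (δ : ℂ) * ctr f ∈ sq δ f := by
  have e1 : ((δ : ℂ) * ctr f).re = δ * (f.1 + 1 / 2) := by simp [ctr]
  have e2 : ((δ : ℂ) * ctr f).im = δ * (f.2 + 1 / 2) := by simp [ctr]
  rw [sq, mem_ofPred_eq, e1, e2]
  refine ⟨?_, ?_, ?_, ?_⟩ <;> nlinarith

theorem sq_subset_D6 {f : ℤ × ℤ} (hf : f ∈ S) : sq δ f ⊆ D6 δ S :=
  interior_maximal (fun _ ⟨h1, h2, h3, h4⟩ => ⟨f, hf, h1.le, h2.le, h3.le, h4.le⟩) (isOpen_sq δ f)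

theorem int_eq_of {a b : ℤ} {x : ℝ} (hδ : 0 < δ) (h1 : δ * a < x) (h2 : x < δ * (a + 1))
    (h3 : δ * b ≤ x) (h4 : x ≤ δ * (b + 1)) : a = b := by
  have a1 : (a : ℝ) < b + 1 := lt_of_mul_lt_mul_left (h1.trans_le h4) hδ.le
  have a2 : (b : ℝ) < a + 1 := lt_of_mul_lt_mul_left (h3.trans_lt h2) hδ.le
  have b1 : a < b + 1 := by exact_mod_cast a1
  have b2 : b < a + 1 := by exact_mod_cast a2
  omega

theorem mem_of_sq (hδ : 0 < δ) {f : ℤ × ℤ} {z : ℂ} (hz : z ∈ sq δ f) (h : z ∈ region δ S) :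
    f ∈ S := by
  obtain ⟨g, hg, h1, h2, h3, h4⟩ := h
  obtain ⟨k1, k2, k3, k4⟩ := hz
  rwa [show f = g from Prod.ext (int_eq_of hδ k1 k2 h1 h2) (int_eq_of hδ k3 k4 h3 h4)]

/-- The enclosed faces are those whose open square is inside the polygon. -/
theorem Encl.mem_iff_sq (h : Encl p S) (hδ : 0 < δ) {f : ℤ × ℤ} :
    f ∈ S ↔ sq δ f ⊆ inside δ p := by
  rw [h.inside_eq δ hδ]
  exact ⟨sq_subset_D6, fun hf => mem_of_sq hδ (ctr_mem_sq hδ f)
    (interior_subset (hf (ctr_mem_sq hδ f)))⟩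

/-- The enclosed faces are those whose centre is inside the polygon. -/
theorem Encl.mem_iff_ctr (h : Encl p S) (hδ : 0 < δ) {f : ℤ × ℤ} :
    f ∈ S ↔ (δ : ℂ) * ctr f ∈ inside δ p := by
  rw [h.inside_eq δ hδ]
  exact ⟨fun hf => sq_subset_D6 hf (ctr_mem_sq hδ f),
    fun hf => mem_of_sq hδ (ctr_mem_sq hδ f) (interior_subset hf)⟩

theorem mem_verts {v : ℤ × ℤ} : v ∈ JG.verts S ↔
    ∃ f ∈ S, f.1 ≤ v.1 ∧ v.1 ≤ f.1 + 1 ∧ f.2 ≤ v.2 ∧ v.2 ≤ f.2 + 1 := by
  unfold JG.verts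
  simp only [Finset.mem_union, Finset.mem_image]
  constructor
  · rintro (((h | ⟨f, hf, rfl⟩) | ⟨f, hf, rfl⟩) | ⟨f, hf, rfl⟩)
    · exact ⟨v, h, by simp⟩
    · exact ⟨f, hf, by simp⟩
    · exact ⟨f, hf, by simp⟩
    · exact ⟨f, hf, by simp⟩
  · rintro ⟨f, hf, h1, h2, h3, h4⟩
    obtain ⟨a, b⟩ := v
    obtain ⟨x, y⟩ := f
    dsimp only at h1 h2 h3 h4
    rcases (show a = x ∨ a = x + 1 by omega) with rfl | rfl <;>
      rcases (show b = y ∨ b = y + 1 by omega) with rfl | rfl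
    · exact Or.inl (Or.inl (Or.inl hf))
    · exact Or.inl (Or.inr ⟨_, hf, by simp⟩)
    · exact Or.inl (Or.inl (Or.inr ⟨_, hf, by simp⟩))
    · exact Or.inr ⟨_, hf, by simp⟩

/-- The vertices of the graph are the lattice vertices on or inside the polygon. -/
theorem Encl.mem_verts_iff (h : Encl p S) (hδ : 0 < δ) {v : ℤ × ℤ} :
    v ∈ JG.verts S ↔ (δ : ℂ) * pt v ∈ curve δ p ∪ inside δ p := by
  rw [h.union_eq hδ, H72.Lit.mem_region_pt hδ, mem_verts]

/-- A horizontal lattice edge is on or inside the polygon iff one of its sides is enclosed. -/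
theorem Encl.hseg_iff (h : Encl p S) (hδ : 0 < δ) {e : ℤ × ℤ} :
    segment ℝ ((δ : ℂ) * pt e) (δ * pt (e + (1, 0))) ⊆ curve δ p ∪ inside δ p ↔
      e ∈ S ∨ e - (0, 1) ∈ S := by
  rw [h.union_eq hδ]
  constructor
  · intro hs
    obtain ⟨f, hf, a1, a2, a3, a4⟩ := H72.Lit.mid_region hδ hs
    obtain ⟨a, b⟩ := e
    obtain ⟨x, y⟩ := f
    simp only [Prod.mk_add_mk, add_zero] at a1 a2 a3 a4
    obtain rfl : x = a := by omega
    rcases (show y = b ∨ y = b - 1 by omega) with rfl | rfl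
    · exact Or.inl hf
    · exact Or.inr (by simpa using hf)
  · rintro (hf | hf)
    · exact H72.Lit.seg_sub hδ hf (by simp) (by simp)
    · exact H72.Lit.seg_sub hδ hf (by simp) (by simp)

/-- A vertical lattice edge is on or inside the polygon iff one of its sides is enclosed. -/
theorem Encl.vseg_iff (h : Encl p S) (hδ : 0 < δ) {e : ℤ × ℤ} :
    segment ℝ ((δ : ℂ) * pt e) (δ * pt (e + (0, 1))) ⊆ curve δ p ∪ inside δ p ↔
      e ∈ S ∨ e - (1, 0) ∈ S := by
  rw [h.union_eq hδ]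
  constructor
  · intro hs
    obtain ⟨f, hf, a1, a2, a3, a4⟩ := H72.Lit.mid_region hδ hs
    obtain ⟨a, b⟩ := e
    obtain ⟨x, y⟩ := f
    simp only [Prod.mk_add_mk, add_zero] at a1 a2 a3 a4
    obtain rfl : y = b := by omega
    rcases (show x = a ∨ x = a - 1 by omega) with rfl | rfl
    · exact Or.inl hf
    · exact Or.inr (by simpa using hf)
  · rintro (hf | hf)
    · exact H72.Lit.seg_sub hδ hf (by simp) (by simp)
    · exact H72.Lit.seg_sub hδ hf (by simp) (by simp)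

/-- A point inside the polygon is in the closed square of an enclosed face with the integer parts
as the corner. -/
theorem floor_mem (hδ : 0 < δ) {z : ℂ} (hz : z ∈ D6 δ S) : (⌊z.re / δ⌋, ⌊z.im / δ⌋) ∈ S := by
  have hc : Tendsto (fun s : ℝ => z + (s + s * Complex.I)) (𝓝[>] 0) (𝓝 z) := by
    have : Continuous fun s : ℝ => z + (s + s * Complex.I) := by fun_prop
    have h0 := this.tendsto 0
    simp only [Complex.ofReal_zero, zero_mul, add_zero] at h0
    exact h0.mono_left nhdsWithin_le_nhds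
  have h1 : z.re < δ * (⌊z.re / δ⌋ + 1) := by
    have := Int.lt_floor_add_one (z.re / δ)
    rwa [div_lt_iff₀ hδ, mul_comm] at this
  have h2 : z.im < δ * (⌊z.im / δ⌋ + 1) := by
    have := Int.lt_floor_add_one (z.im / δ)
    rwa [div_lt_iff₀ hδ, mul_comm] at this
  have h3 : δ * ⌊z.re / δ⌋ ≤ z.re := by
    have := Int.floor_le (z.re / δ)
    rwa [le_div_iff₀ hδ, mul_comm] at this
  have h4 : δ * ⌊z.im / δ⌋ ≤ z.im := by
    have := Int.floor_le (z.im / δ)
    rwa [le_div_iff₀ hδ, mul_comm] at this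
  have e1 : ∀ᶠ s : ℝ in 𝓝[>] 0, s < δ * (⌊z.re / δ⌋ + 1) - z.re :=
    (eventually_lt_nhds (by linarith)).filter_mono nhdsWithin_le_nhds
  have e2 : ∀ᶠ s : ℝ in 𝓝[>] 0, s < δ * (⌊z.im / δ⌋ + 1) - z.im :=
    (eventually_lt_nhds (by linarith)).filter_mono nhdsWithin_le_nhds
  obtain ⟨s, hs1, hs2, hs3, hs4⟩ := ((hc.eventually ((E6.isOpen_D6 δ S).mem_nhds hz)).and
    (e1.and (e2.and self_mem_nhdsWithin))).exists
  have hs0 : 0 < s := hs4
  refine mem_of_sq hδ (z := z + (s + s * Complex.I)) ?_ (interior_subset hs1)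
  have r1 : (z + (s + s * Complex.I)).re = z.re + s := by simp
  have r2 : (z + (s + s * Complex.I)).im = z.im + s := by simp
  rw [sq, mem_ofPred_eq, r1, r2]
  refine ⟨?_, ?_, ?_, ?_⟩ <;> dsimp only <;> linarith

end Vale.Agent.P145W51
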